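import Vale.Agent.P022.H132.L3.End
import Vale.Agent.P022.H443.Tri
import Vale.Agent.P022.H23.L3.RGood
import Vale.Agent.P022.H20.L3.Fin3

/-!
P022-L3: the assembly of the representation side.
-/

open Matrix MvPolynomial NumberField
open scoped Pointwise

noncomputable section

namespace Vale.Agent.P022.H132.Z

open Vale.Agent.P022 Vale.Agent.P022.H346 Vale.Agent.P022.H916

section

variable {E : Type} [NontriviallyNormedField E]

/-- if `r` is ramified at `ℓ`, it is so at every prime above `ℓ` -/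
theorem ram_all (r : GQ →* GL (Fin 2) E) {l : ℕ} (hl : l.Prime) (h : ¬ UnrAt r l)
    {P : Ideal (𝓞 Qb)} (hP : P.IsPrime) (hlP : (l : 𝓞 Qb) ∈ P) :
    ∃ g : GQ, (∀ x : 𝓞 Qb, g • x - x ∈ P) ∧ r g ≠ 1 := by
  unfold UnrAt at h
  push Not at h
  obtain ⟨Q, hQ, hlQ, g, hg, hne⟩ := h
  obtain ⟨c, hc⟩ := exists_smul (algebraMap ℚ Qb) hP hQ
    ((H20.below_eq hl hP hlP).trans (H20.below_eq hl hQ hlQ).symm)
  refine ⟨(c : GQ)⁻¹ * g * (c : GQ), fun x => ?_, fun h1 => hne ?_⟩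
  · have h1 := hg ((c : GQ) • x)
    rw [hc, Ideal.mem_pointwise_smul_iff_inv_smul_mem, smul_sub, ← mul_smul, ← mul_smul,
      ← mul_smul, inv_mul_cancel, one_smul] at h1
    rwa [mul_assoc]
  · rw [map_mul, map_mul, map_inv] at h1
    have h2 : r g = r (c : GQ) * ((r (c : GQ))⁻¹ * r g * r (c : GQ)) * (r (c : GQ))⁻¹ := by group
    rw [h2, h1]
    group

end

/-- the generators -/
theorem exists_gens : ∃ c τ σ : GQ, Gens c τ σ ∧ ∃ P : Ideal (𝓞 Qb), P.IsPrime ∧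
    ((3 : ℕ) : 𝓞 Qb) ∈ P ∧ (∀ x : 𝓞 Qb, τ • x - x ∈ P) ∧ (∀ x : 𝓞 Qb, σ • x - x ^ 3 ∈ P) ∧
    ∀ N : Subgroup GQ, H443.Two N → ∀ g ∈ H443.inP P, ∃ n : ℕ, g⁻¹ * τ ^ n ∈ N := by
  obtain ⟨P, s, c, τ, σ, hP, h3, hs, hc, hcc, hτ, hτs, hσ, hσs, hgen, hU, htame⟩ := H443.tri
  refine ⟨c, τ, σ, ⟨hcc, hc, ⟨P, hP, h3, hτ, hσ⟩, ⟨s, hs, hτs, hσs⟩, hU, fun U hG => ?_⟩,
    P, hP, h3, hτ, hσ, hgen⟩
  have h1 := U.inv_mem (htame U hG)
  have e : ((σ * τ)⁻¹ * (τ ^ 3 * σ))⁻¹ = (τ * τ * τ * σ)⁻¹ * (σ * τ) := by group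
  rwa [e] at h1

/-- **P022-L3: the estimate, from the weight `k` data and the faithfulness** -/
theorem est (ring : RingMain) (W : ∀ i : ℕ, Even i → WD i)
    (faith : ∀ c τ σ : GQ, Gens c τ σ → Faith W c τ σ)
    (E : Type) [NontriviallyNormedField E] [NormedAlgebra ℚ_[2] E] [IsUltrametricDist E]
    (r : GQ →* GL (Fin 2) E) (hc : Continuous r) (ho : OddRep r) (h3 : C3 r)
    (φ : PA 3 → GQ) (hφ : ∀ ℓ, IsFrob ℓ.1 (φ ℓ)) (ε : ℝ) (hε : 0 < ε) :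
    ∃ k : ℕ, ∀ x : FreeAlgebra ℤ (Gen 3),
      (∀ i < k, FreeAlgebra.lift ℤ (fun s => gHk 3 s i) x = 0) →
        ‖FreeAlgebra.lift ℤ (Sum.elim
          (fun ℓ => (r (φ ℓ) : Matrix (Fin 2) (Fin 2) E).trace)
          (fun ℓ => (r (φ ℓ) : Matrix (Fin 2) (Fin 2) E).det)) x‖ < ε := by
  obtain ⟨c, τ, σ, H, P, hP, hP3, hτ, hσ, hgen⟩ := exists_gens
  have h2 : ∀ g : GQ, (∀ x : 𝓞 Qb, g • x - x ∈ P) → r g ^ 2 = 1 := by
    intro g hg
    rcases h3.2.2.1 P hP hP3 g hg with h | h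
    · rw [h, one_pow]
    · rw [sq, h.1]
  have h1 : ∃ g : GQ, (∀ x : 𝓞 Qb, g • x - x ∈ P) ∧ r g ≠ 1 ∧ r g ≠ -1 := by
    obtain ⟨g, hg, hne⟩ := ram_all r Nat.prime_three h3.2.2.2 hP hP3
    refine ⟨g, hg, hne, fun h => ?_⟩
    rcases h3.2.2.1 P hP hP3 g hg with h4 | h4
    · exact hne h4
    · have h5 := h4.2
      rw [h, Units.val_neg, Units.val_one, Matrix.det_neg, Matrix.det_one] at h5
      have h6 : (2 : E) * 1 = 0 := by
        simp only [Fintype.card_fin] at h5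
        linear_combination h5
      exact one_ne_zero (tfE 1 h6)
  obtain ⟨-, ht, hd, -, -⟩ := H443.type_r r hc (fun g => (h3.2.1 g).1) (fun g => (h3.2.1 g).2)
    Nat.prime_three (by norm_num) hP hP3 hσ hτ hgen h2 h1
  have hr : Rep r c τ := ⟨h3.2.1, H23.L3.rgood r hc h3.1 h3.2.1, ho c H.conj, ht, hd⟩
  exact key ring W H (faith c τ σ H) E r hr φ hφ ε hε

/-- **P022-L3, from the weight `k` data and the faithfulness** -/
theorem l3 (ring : RingMain) (W : ∀ i : ℕ, Even i → WD i)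
    (faith : ∀ c τ σ : GQ, Gens c τ σ → Faith W c τ σ)
    (E : Type) [NontriviallyNormedField E] [NormedAlgebra ℚ_[2] E] [FiniteDimensional ℚ_[2] E]
    (r : GQ →* GL (Fin 2) E) (hc : Continuous r) (ho : OddRep r) (h3 : C3 r) : Q1Concl E r := by
  have hu : IsUltrametricDist E := IsUltrametricDist.of_normedAlgebra ℚ_[2]
  exact H20.fin3 E r h3 fun φ hφ ε hε => est ring W faith E r hc ho h3 φ hφ ε hε

end Vale.Agent.P022.H132.Z
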