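import Vale.Agent.P022.H472.Lit2
import Vale.Agent.P022.H20.GalDef
import Vale.Agent.P022.H346.FAlg

/-!
P022-L3, row [Z]: the interface between the chapters G, C (weight `k` data), A (faithfulness), F
(generators) and the end.
-/

open scoped NumberField
open Matrix

noncomputable section

namespace Vale.Agent.P022.H132.Z

open Vale.Agent.P022 Vale.Agent.P022.H346

/-- open normal subgroups `U` of `G_ℚ`, `G_ℚ / U` a 2-group unramified outside `2, 3` -/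
structure Good (U : Subgroup GQ) : Prop where
  nor : U.Normal
  op : IsOpen (U : Set GQ)
  two : ∀ g : GQ, ∃ k : ℕ, g ^ 2 ^ k ∈ U
  unr : ∀ ℓ : ℕ, ℓ.Prime → ¬ ℓ ∣ 6 → ∀ P : Ideal (𝓞 Qb), P.IsPrime → (ℓ : 𝓞 Qb) ∈ P →
    ∀ g : GQ, (∀ x : 𝓞 Qb, g • x - x ∈ P) → g ∈ U

theorem Good.inf {U V : Subgroup GQ} (hU : Good U) (hV : Good V) : Good (U ⊓ V) where
  nor := by
    have h1 := hU.nor
    have h2 := hV.nor
    exact inferInstance
  op := by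
    rw [Subgroup.coe_inf]
    exact hU.op.inter hV.op
  two g := by
    obtain ⟨a, ha⟩ := hU.two g
    obtain ⟨b, hb⟩ := hV.two g
    refine ⟨a + b, Subgroup.mem_inf.2 ⟨?_, ?_⟩⟩
    · rw [pow_add, pow_mul]
      exact U.pow_mem ha _
    · rw [pow_add, mul_comm, pow_mul]
      exact V.pow_mem hb _
  unr ℓ hℓ h6 P hP hm g hg :=
    Subgroup.mem_inf.2 ⟨hU.unr ℓ hℓ h6 P hP hm g hg, hV.unr ℓ hℓ h6 P hP hm g hg⟩

/-- the weight `k` datum (`k` odd, level 3): a commutative ring `T` (2-torsion free, separated)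
with a continuous trace function `t` on `G_ℚ` and a homomorphism `ev` from the free algebra of the
Hecke operators which factors through the operators of weight `k = i + 1` -/
structure WD (i : ℕ) where
  T : Type
  [cr : CommRing T]
  tf : ∀ a : T, 2 * a = 0 → a = 0
  sep : ∀ a : T, (∀ n : ℕ, (2 : T) ^ n ∣ a) → a = 0
  t : GQ → T
  d : GQ →* Tˣ
  htf : TF t d
  cont : ∀ n : ℕ, ∃ U : Subgroup GQ, Good U ∧ ∀ g : GQ, ∀ u ∈ U,
    (2 : T) ^ n ∣ t (g * u) - t g ∧ (2 : T) ^ n ∣ (d (g * u) : T) - d g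
  /-- complex conjugations -/
  dc : ∀ c : GQ, IsConj c → (d c : T) = -1
  /-- inertia at 3, moving `√-3` -/
  dt : ∀ P : Ideal (𝓞 Qb), P.IsPrime → ((3 : ℕ) : 𝓞 Qb) ∈ P → ∀ g : GQ,
    (∀ x : 𝓞 Qb, g • x - x ∈ P) → ∀ s : Qb, s ^ 2 = -3 → g s = -s → (d g : T) = -1
  /-- Frobenius elements at 3 fixing `√-3` -/
  ds : ∀ P : Ideal (𝓞 Qb), P.IsPrime → ((3 : ℕ) : 𝓞 Qb) ∈ P → ∀ g : GQ,
    (∀ x : 𝓞 Qb, g • x - x ^ 3 ∈ P) → ∀ s : Qb, s ^ 2 = -3 → g s = s → (d g : T) = 3 ^ i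
  ev : FreeAlgebra ℤ (Gen 3) →+* T
  evT : ∀ (ℓ : PA 3) (φ : GQ), IsFrob ℓ.1 φ → ev (FreeAlgebra.ι ℤ (Sum.inl ℓ)) = t φ
  evS : ∀ (ℓ : PA 3) (φ : GQ), IsFrob ℓ.1 φ → ev (FreeAlgebra.ι ℤ (Sum.inr ℓ)) = d φ
  kill : ∀ X : FreeAlgebra ℤ (Gen 3), FreeAlgebra.lift ℤ (fun s => gHk 3 s i) X = 0 → ev X = 0

attribute [instance] WD.cr

/-- divisibility by `b` in `T / Ann(x)` -/
def DvdX {T : Type} [CommRing T] (x b a : T) : Prop := ∃ y : T, x * a = x * (b * y)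

/-- **the output of chapter A** for generators `c, τ, σ` and the data `W`: modulo 2 the traces
`x = t(σ)` and `C = t(cτσ)` satisfy no relation -/
def Faith (W : ∀ i : ℕ, Even i → WD i) (c τ σ : GQ) : Prop :=
  ∀ (s : ℕ) (P : ℕ → ℕ → ℤ), (∀ (i : ℕ) (hi : Even i), 0 < i → 2 ^ (s + 1) ∣ i → ∀ N : ℕ,
    DvdX ((W i hi).t σ) 2 ((W i hi).t σ ^ N) → DvdX ((W i hi).t σ) 2 ((W i hi).t (c * τ * σ) ^ N) →
    DvdX ((W i hi).t σ) 2 (∑ p ∈ Finset.range N, ∑ q ∈ Finset.range N,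
      (P p q : (W i hi).T) * (W i hi).t σ ^ p * (W i hi).t (c * τ * σ) ^ q)) → ∀ p q, 2 ∣ P p q

/-- the six traces -/
structure Rel {S : Type*} [CommRing S] (x y z A B C : S) : Prop where
  r1 : 2 * C = A * x
  r2 : 2 * B = A * y
  r3 : y ^ 2 = x ^ 2 - 4 * z
  r4 : y * B = C * x - 2 * A * z
  r5 : B ^ 2 = C ^ 2 - A ^ 2 * z

end Vale.Agent.P022.H132.Z
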