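import Vale.Agent.P022.H132.L3.Z

/-!
P022-L3, row [Z]: the last step (letters, words, all of `G_ℚ`, the Hecke algebra, the estimate).
-/

open Matrix MvPolynomial
open scoped NumberField

set_option linter.unusedSectionVars false

noncomputable section

namespace Vale.Agent.P022.H132.Z

open Vale.Agent.P022 Vale.Agent.P022.H346

section letters

variable (W : ∀ i : ℕ, Even i → WD i) {c τ σ : GQ}

/-- the hypotheses on `c, τ, σ` -/
structure Gens (c τ σ : GQ) : Prop where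
  cc : c * c = 1
  conj : IsConj c
  pt : ∃ P : Ideal (𝓞 Qb), P.IsPrime ∧ ((3 : ℕ) : 𝓞 Qb) ∈ P ∧
    (∀ x : 𝓞 Qb, τ • x - x ∈ P) ∧ (∀ x : 𝓞 Qb, σ • x - x ^ 3 ∈ P)
  sq : ∃ s : Qb, s ^ 2 = -3 ∧ τ s = -s ∧ σ s = s
  gen : ∀ U : Subgroup GQ, Good U → Subgroup.closure {c, τ, σ} ⊔ U = ⊤
  tame : ∀ U : Subgroup GQ, Good U → (τ * τ * τ * σ)⁻¹ * (σ * τ) ∈ U

variable {W}

theorem Gens.dτ (H : Gens c τ σ) {i : ℕ} (w : WD i) : (w.d τ : w.T) = -1 := by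
  obtain ⟨P, hP, h3, ht, -⟩ := H.pt
  obtain ⟨s, hs, hts, -⟩ := H.sq
  exact w.dt P hP h3 τ ht s hs hts

theorem Gens.dσ (H : Gens c τ σ) {i : ℕ} (w : WD i) : (w.d σ : w.T) = 3 ^ i := by
  obtain ⟨P, hP, h3, -, ht⟩ := H.pt
  obtain ⟨s, hs, -, hts⟩ := H.sq
  exact w.ds P hP h3 σ ht s hs hts

theorem Gens.tc (H : Gens c τ σ) {i : ℕ} (w : WD i) : w.t c = 0 :=
  t_c w.htf w.tf H.cc (w.dc c H.conj)

theorem Gens.xm (H : Gens c τ σ) {i : ℕ} (w : WD i) : w.t σ * w.t τ = 0 :=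
  Z.xm w.htf (H.dτ w) (exW w H.tame)

variable (W)

theorem Gens.tcq (H : Gens c τ σ) (k : ℕ) : tq W σ k c = 0 := by
  change mq _ ((Wk W k).t c) = 0
  rw [H.tc, map_zero]

theorem Gens.ttq (H : Gens c τ σ) (k : ℕ) : tq W σ k τ = 0 := by
  change mq _ ((Wk W k).t τ) = 0
  rw [mq_eq_zero]
  exact H.xm (Wk W k)

theorem Gens.dcq (H : Gens c τ σ) (k : ℕ) :
    (dq W σ k c : Tq ((Wk W k).t σ)) = -1 := by
  rw [dq_val, (Wk W k).dc c H.conj, map_neg, map_one]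

theorem Gens.dtq (H : Gens c τ σ) (k : ℕ) :
    (dq W σ k τ : Tq ((Wk W k).t σ)) = -1 := by
  rw [dq_val, H.dτ, map_neg, map_one]

theorem Gens.dsq (H : Gens c τ σ) (k : ℕ) :
    (dq W σ k σ : Tq ((Wk W k).t σ)) = 3 ^ ix k := by
  rw [dq_val, H.dσ, map_pow, map_ofNat]

theorem Gens.exq (H : Gens c τ σ) (k : ℕ) (u v : GQ) :
    tq W σ k (u * σ * τ * v) = tq W σ k (u * τ * τ * τ * σ * v) :=
  congrArg (mq ((Wk W k).t σ)) (exW (Wk W k) H.tame u v)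

/-- the five relations in weight `k` -/
theorem Gens.relq (H : Gens c τ σ) {k : ℕ} (hk : Odd k) :
    Rel (mq ((Wk W k).t σ) ((Wk W k).t σ)) (mq ((Wk W k).t σ) ((Wk W k).t (σ * τ)))
      (3 ^ (k - 1)) (mq ((Wk W k).t σ) ((Wk W k).t (c * τ)))
      (mq ((Wk W k).t σ) ((Wk W k).t (c * σ))) (mq ((Wk W k).t σ) ((Wk W k).t (c * τ * σ))) := by
  have h := rel_of (tfq W σ k) (tq_tf (Wk W k).tf _) (H.tcq W k) (H.ttq W k) (H.dtq W k)
    (H.exq W k)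
  have e3 : (3 : Tq ((Wk W k).t σ)) ^ ix k = 3 ^ (k - 1) :=
    congrArg (fun n => (3 : Tq ((Wk W k).t σ)) ^ n) (ix_odd hk)
  rw [H.dsq W k, e3] at h
  exact h

/-- nilpotence modulo 2 -/
theorem nilq (c τ σ : GQ) (k : ℕ) : ∃ N, (2 : Tq ((Wk W k).t σ)) ∣ mq _ ((Wk W k).t σ) ^ N ∧
    (2 : Tq ((Wk W k).t σ)) ∣ mq _ ((Wk W k).t (c * τ)) ^ N ∧
    (2 : Tq ((Wk W k).t σ)) ∣ mq _ ((Wk W k).t (c * τ * σ)) ^ N := by
  have key : ∀ g : GQ, ∃ N, ∀ M, N ≤ M →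
      (2 : Tq ((Wk W k).t σ)) ∣ mq _ ((Wk W k).t g) ^ M := by
    intro g
    obtain ⟨N, hN⟩ := nilW (Wk W k) g
    refine ⟨N, fun M hM => ?_⟩
    have := map_dvd (mq ((Wk W k).t σ)) (hN M hM)
    rwa [map_ofNat, map_pow] at this
  obtain ⟨a, ha⟩ := key σ
  obtain ⟨b, hb⟩ := key (c * τ)
  obtain ⟨d, hd⟩ := key (c * τ * σ)
  exact ⟨a + b + d, ha _ (by omega), hb _ (by omega), hd _ (by omega)⟩

/-- the faithfulness in the letters of [RING] -/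
theorem faith_k (hF : Faith W c τ σ) (s : ℕ) (P : ℕ → ℕ → ℤ)
    (H : ∀ k, 1 < k → k ≡ 1 [MOD 2 ^ (s + 1)] → ∀ N,
      (2 : Tq ((Wk W k).t σ)) ∣ mq _ ((Wk W k).t σ) ^ N →
      (2 : Tq ((Wk W k).t σ)) ∣ mq _ ((Wk W k).t (c * τ * σ)) ^ N →
      (2 : Tq ((Wk W k).t σ)) ∣ ∑ p ∈ Finset.range N, ∑ q ∈ Finset.range N,
        (P p q : Tq ((Wk W k).t σ)) * mq _ ((Wk W k).t σ) ^ p *
          mq _ ((Wk W k).t (c * τ * σ)) ^ q) : ∀ p q, 2 ∣ P p q := by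
  refine hF s P ?_
  intro i hi h0 hd
  have e : i = ix (i + 1) := by
    obtain ⟨m, rfl⟩ := hi
    simp only [ix]
    omega
  have key : ∀ j (hj : Even j), j = ix (i + 1) → ∀ N : ℕ,
      DvdX ((W j hj).t σ) 2 ((W j hj).t σ ^ N) →
      DvdX ((W j hj).t σ) 2 ((W j hj).t (c * τ * σ) ^ N) →
      DvdX ((W j hj).t σ) 2 (∑ p ∈ Finset.range N, ∑ q ∈ Finset.range N,
        (P p q : (W j hj).T) * (W j hj).t σ ^ p * (W j hj).t (c * τ * σ) ^ q) := by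
    rintro j hj rfl N h1 h2
    have hm : i + 1 ≡ 1 [MOD 2 ^ (s + 1)] := by
      obtain ⟨q, rfl⟩ := hd
      exact (Nat.mul_add_mod _ _ _)
    have h3 := H (i + 1) (by omega) hm N
    rw [dvdX_iff] at h1 h2 ⊢
    rw [map_ofNat, map_pow] at h1 h2
    have h4 := h3 h1 h2
    rw [map_ofNat, map_sum]
    simp only [map_sum, map_mul, map_intCast, map_pow]
    exact h4
  exact key i hi e

end letters

section prod

variable (W : ∀ i : ℕ, Even i → WD i) {c τ σ : GQ}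
variable {E : Type} [NontriviallyNormedField E] [NormedAlgebra ℚ_[2] E] [IsUltrametricDist E]

/-- trace -/
abbrev tr (r : GQ →* GL (Fin 2) E) (g : GQ) : E := (r g : Matrix (Fin 2) (Fin 2) E).trace

/-- determinant -/
abbrev dr (r : GQ →* GL (Fin 2) E) (g : GQ) : E := (r g : Matrix (Fin 2) (Fin 2) E).det

/-- the trace function with values in the product -/
def tP (r : GQ →* GL (Fin 2) E) (σ : GQ) (k0 : ℕ) (g : GQ) : PRg W E σ k0 :=
  (fun j => tq W σ j.1 g, tr r g)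

/-- the determinant with values in the product -/
def fP (r : GQ →* GL (Fin 2) E) (σ : GQ) (k0 : ℕ) : GQ →* PRg W E σ k0 where
  toFun g := (fun j => (dq W σ j.1 g : Tq ((Wk W j.1).t σ)), dr r g)
  map_one' := by
    refine Prod.ext (funext fun j => ?_) ?_
    · change (dq W σ j.1 1 : Tq ((Wk W j.1).t σ)) = 1
      rw [map_one, Units.val_one]
    · change (r 1 : Matrix (Fin 2) (Fin 2) E).det = 1
      rw [map_one, Units.val_one, Matrix.det_one]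
  map_mul' g h := by
    refine Prod.ext (funext fun j => ?_) ?_
    · change (dq W σ j.1 (g * h) : Tq ((Wk W j.1).t σ)) = dq W σ j.1 g * dq W σ j.1 h
      rw [map_mul, Units.val_mul]
    · change (r (g * h) : Matrix (Fin 2) (Fin 2) E).det = dr r g * dr r h
      rw [map_mul, Units.val_mul, Matrix.det_mul]

/-- the same as a homomorphism to the units -/
def dP (r : GQ →* GL (Fin 2) E) (σ : GQ) (k0 : ℕ) : GQ →* (PRg W E σ k0)ˣ :=
  (fP W r σ k0).toHomUnits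

theorem dP_val (r : GQ →* GL (Fin 2) E) (σ : GQ) (k0 : ℕ) (g : GQ) :
    ((dP W r σ k0 g : (PRg W E σ k0)ˣ) : PRg W E σ k0) = fP W r σ k0 g := rfl

theorem dP_inv (r : GQ →* GL (Fin 2) E) (σ : GQ) (k0 : ℕ) (g : GQ) :
    (((dP W r σ k0 g)⁻¹ : (PRg W E σ k0)ˣ) : PRg W E σ k0) = fP W r σ k0 g⁻¹ := by
  rw [← map_inv]; rfl

theorem tfP (r : GQ →* GL (Fin 2) E) (σ : GQ) (k0 : ℕ) :
    TF (tP W r σ k0) (dP W r σ k0) where
  one := Prod.ext (funext fun j => (tfq W σ j.1).one) (TF.ofGL r).one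
  comm g h := Prod.ext (funext fun j => (tfq W σ j.1).comm g h) ((TF.ofGL r).comm g h)
  mul g h := Prod.ext (funext fun j => (tfq W σ j.1).mul g h) ((TF.ofGL r).mul g h)

/-- the hypotheses on `r` -/
structure Rep (r : GQ →* GL (Fin 2) E) (c τ : GQ) : Prop where
  res : ∀ g : GQ, ‖tr r g‖ < 1 ∧ ‖dr r g - 1‖ < 1
  good : ∀ ε : ℝ, 0 < ε → ∃ U : Subgroup GQ, Good U ∧ ∀ g : GQ, ∀ u ∈ U,
    ‖tr r (g * u) - tr r g‖ < ε ∧ ‖dr r (g * u) - dr r g‖ < ε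
  dc : dr r c = -1
  tt : tr r τ = 0
  dt : dr r τ = -1

/-- the six letters in `E` -/
def lE (r : GQ →* GL (Fin 2) E) (c τ σ : GQ) : Fin 6 → E :=
  ![tr r σ, tr r (σ * τ), dr r σ, tr r (c * τ), tr r (c * σ), tr r (c * τ * σ)]

omit [NormedAlgebra ℚ_[2] E] in
theorem norm_of_sub {Z : E} (hZ : ‖Z - 1‖ < 1) : ‖Z‖ ≤ 1 := by
  have h1 : Z = (Z - 1) + 1 := by ring
  rw [h1]
  exact (IsUltrametricDist.norm_add_le_max _ _).trans (max_le hZ.le (by rw [norm_one]))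

omit [NormedAlgebra ℚ_[2] E] in
theorem lE_le {r : GQ →* GL (Fin 2) E} (hr : ∀ g : GQ, ‖tr r g‖ < 1 ∧ ‖dr r g - 1‖ < 1) :
    ∀ i, ‖lE r c τ σ i‖ ≤ 1 := by
  intro i
  fin_cases i
  · exact (hr _).1.le
  · exact (hr _).1.le
  · exact norm_of_sub (hr _).2
  · exact (hr _).1.le
  · exact (hr _).1.le
  · exact (hr _).1.le

omit [NormedAlgebra ℚ_[2] E] in
theorem exE {r : GQ →* GL (Fin 2) E} (hr : Rep r c τ) (H : Gens c τ σ) (u v : GQ) :
    tr r (u * σ * τ * v) = tr r (u * τ * τ * τ * σ * v) := by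
  rw [← sub_eq_zero, ← norm_eq_zero]
  refine le_antisymm ?_ (norm_nonneg _)
  refine le_of_forall_pos_le_add fun ε hε => ?_
  rw [zero_add]
  obtain ⟨U, hU, hc⟩ := hr.good ε hε
  have hn := hU.nor
  have h1 := (hc (u * τ * τ * τ * σ * v) (v⁻¹ * ((τ * τ * τ * σ)⁻¹ * (σ * τ)) * v)
    (by simpa using hn.conj_mem _ (H.tame U hU) v⁻¹)).1
  have e : u * τ * τ * τ * σ * v * (v⁻¹ * ((τ * τ * τ * σ)⁻¹ * (σ * τ)) * v) =
      u * σ * τ * v := by group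
  rw [e] at h1
  exact h1.le

theorem two_ne : (2 : E) ≠ 0 := by
  have e : (2 : E) = algebraMap ℚ_[2] E 2 := (map_ofNat _ 2).symm
  rw [e]
  intro h
  rw [← map_zero (algebraMap ℚ_[2] E)] at h
  exact two_ne_zero ((algebraMap ℚ_[2] E).injective h)

theorem tfE : ∀ a : E, 2 * a = 0 → a = 0 := fun _ ha =>
  (mul_eq_zero.1 ha).resolve_left two_ne

theorem tcE {r : GQ →* GL (Fin 2) E} (hr : Rep r c τ) (H : Gens c τ σ) : tr r c = 0 :=
  t_c (TF.ofGL r) tfE H.cc hr.dc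

theorem relE {r : GQ →* GL (Fin 2) E} (hr : Rep r c τ) (H : Gens c τ σ) :
    Rel (tr r σ) (tr r (σ * τ)) (dr r σ) (tr r (c * τ)) (tr r (c * σ)) (tr r (c * τ * σ)) :=
  rel_of (TF.ofGL r) tfE (tcE hr H) hr.tt hr.dt (exE hr H)

/-! ### the letters -/

section mem

variable {k0 n : ℕ} {r : GQ →* GL (Fin 2) E} {hL : ∀ i, ‖lE r c τ σ i‖ ≤ 1} {ε : ℝ} {hε : 0 < ε}

/-- a letter -/
theorem Sb_X (i : Fin 6) {s : PRg W E σ k0} (h1 : ∀ j : Fin k0, s.1 j = lt W c τ σ j.1 i)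
    (h2 : s.2 = lE r c τ σ i) : s ∈ Sb W E c τ σ k0 n (lE r c τ σ) hL ε hε := by
  refine ⟨by rw [h2]; exact hL i, X i, fun j => ?_, ?_⟩
  · rw [aeval_X, h1 j, sub_self]
    exact dvd_zero _
  · rw [aeval_X, h2, sub_self, norm_zero]
    exact hε

theorem mem_c (H : Gens c τ σ) (hr : Rep r c τ) :
    tP W r σ k0 c ∈ Sb W E c τ σ k0 n (lE r c τ σ) hL ε hε := by
  have e : tP W r σ k0 c = 0 :=
    Prod.ext (funext fun j => H.tcq W j.1) (tcE hr H)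
  rw [e]
  exact Subring.zero_mem _

theorem mem_τ (H : Gens c τ σ) (hr : Rep r c τ) :
    tP W r σ k0 τ ∈ Sb W E c τ σ k0 n (lE r c τ σ) hL ε hε := by
  have e : tP W r σ k0 τ = 0 :=
    Prod.ext (funext fun j => H.ttq W j.1) hr.tt
  rw [e]
  exact Subring.zero_mem _

theorem mem_dc (H : Gens c τ σ) (hr : Rep r c τ) :
    fP W r σ k0 c ∈ Sb W E c τ σ k0 n (lE r c τ σ) hL ε hε := by
  have e : fP W r σ k0 c = -1 :=
    Prod.ext (funext fun j => H.dcq W j.1) hr.dc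
  rw [e]
  exact Subring.neg_mem _ (Subring.one_mem _)

theorem mem_dτ (H : Gens c τ σ) (hr : Rep r c τ) :
    fP W r σ k0 τ ∈ Sb W E c τ σ k0 n (lE r c τ σ) hL ε hε := by
  have e : fP W r σ k0 τ = -1 :=
    Prod.ext (funext fun j => H.dtq W j.1) hr.dt
  rw [e]
  exact Subring.neg_mem _ (Subring.one_mem _)

theorem mem_dσ : fP W r σ k0 σ ∈ Sb W E c τ σ k0 n (lE r c τ σ) hL ε hε :=
  Sb_X W 2 (fun _ => rfl) rfl

/-- the inverse of the determinant of `σ` -/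
theorem mem_dσ' (H : Gens c τ σ) (hr : Rep r c τ) :
    fP W r σ k0 σ⁻¹ ∈ Sb W E c τ σ k0 n (lE r c τ σ) hL ε hε := by
  have hZ := (hr.res σ).2
  have hρ : max ‖dr r σ - 1‖ ‖(2 : E)‖ < 1 := max_lt hZ (norm_two E)
  have hρ0 : 0 ≤ max ‖dr r σ - 1‖ ‖(2 : E)‖ := (norm_nonneg _).trans (le_max_left _ _)
  obtain ⟨J0, hJ0⟩ := exists_pow_lt_of_lt_one hε hρ
  set J := J0 + n with hJ
  have hJ1 : (max ‖dr r σ - 1‖ ‖(2 : E)‖) ^ (J + 1) < ε :=
    (pow_le_pow_of_le_one hρ0 hρ.le (by omega)).trans_lt hJ0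
  have hpos : 2 ^ J = (2 ^ J - 1) + 1 := (Nat.sub_add_cancel Nat.one_le_two_pow).symm
  have hmem : fP W r σ k0 σ ^ (2 ^ J - 1) ∈ Sb W E c τ σ k0 n (lE r c τ σ) hL ε hε :=
    Subring.pow_mem _ (mem_dσ W) _
  have hn1 : ‖dr r σ⁻¹‖ ≤ 1 := norm_of_sub (hr.res σ⁻¹).2
  have hinv : dr r σ⁻¹ * dr r σ = 1 := by
    have := congrArg Prod.snd ((fP W r σ k0).map_mul σ⁻¹ σ)
    rw [inv_mul_cancel, map_one] at this
    exact this.symm
  refine Sb_add W E hmem (fun j => ?_) ?_ hn1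
  · have h1 : ((2 : ℤ) ^ n) ∣ (3 ^ ix j.1 : ℤ) ^ 2 ^ J - 1 :=
      (pow_dvd_pow 2 (by omega)).trans (two_pow_dvd _ (Odd.pow (by decide)) J)
    have h2 := map_dvd (Int.castRingHom (Tq ((Wk W j.1).t σ))) h1
    simp only [eq_intCast, Int.cast_pow, Int.cast_sub, Int.cast_ofNat, Int.cast_one] at h2
    have h3 : (dq W σ j.1 σ⁻¹ : Tq ((Wk W j.1).t σ)) * (dq W σ j.1 σ : Tq ((Wk W j.1).t σ)) = 1 := by
      rw [← Units.val_mul, ← map_mul, inv_mul_cancel, map_one, Units.val_one]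
    have h4 : (dq W σ j.1 σ⁻¹ : Tq ((Wk W j.1).t σ)) -
        (dq W σ j.1 σ : Tq ((Wk W j.1).t σ)) ^ (2 ^ J - 1) =
        -((dq W σ j.1 σ⁻¹ : Tq ((Wk W j.1).t σ)) *
          ((dq W σ j.1 σ : Tq ((Wk W j.1).t σ)) ^ 2 ^ J - 1)) := by
      rw [hpos, pow_succ]
      rw [Nat.add_sub_cancel]
      linear_combination ((dq W σ j.1 σ : Tq ((Wk W j.1).t σ)) ^ (2 ^ J - 1)) * h3
    change _ ∣ (dq W σ j.1 σ⁻¹ : Tq ((Wk W j.1).t σ)) -
        (dq W σ j.1 σ : Tq ((Wk W j.1).t σ)) ^ (2 ^ J - 1)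
    rw [h4, H.dsq W j.1, dvd_neg]
    exact Dvd.dvd.mul_left h2 _
  · have h4 : dr r σ⁻¹ - dr r σ ^ (2 ^ J - 1) = -(dr r σ⁻¹ * (dr r σ ^ 2 ^ J - 1)) := by
      rw [hpos, pow_succ]
      rw [Nat.add_sub_cancel]
      linear_combination ((dr r σ) ^ (2 ^ J - 1)) * hinv
    change ‖dr r σ⁻¹ - dr r σ ^ (2 ^ J - 1)‖ < ε
    rw [h4, norm_neg, norm_mul]
    exact (mul_le_of_le_one_left (norm_nonneg _) hn1).trans_lt
      ((norm_pow_sub E hZ J).trans_lt hJ1)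

/-- the words -/
theorem mem_word (H : Gens c τ σ) (hr : Rep r c τ) :
    ∀ w ∈ Subgroup.closure {c, τ, σ},
      tP W r σ k0 w ∈ Sb W E c τ σ k0 n (lE r c τ σ) hL ε hε := by
  have hc' : fP W r σ k0 c⁻¹ ∈ Sb W E c τ σ k0 n (lE r c τ σ) hL ε hε := by
    rw [inv_eq_of_mul_eq_one_left H.cc]
    exact mem_dc W H hr
  have ht' : fP W r σ k0 τ⁻¹ ∈ Sb W E c τ σ k0 n (lE r c τ σ) hL ε hε := by
    have e : fP W r σ k0 τ = -1 :=
      Prod.ext (funext fun j => H.dtq W j.1) hr.dt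
    have e2 : fP W r σ k0 τ⁻¹ * fP W r σ k0 τ = 1 := by
      rw [← map_mul, inv_mul_cancel, map_one]
    rw [e, mul_neg, mul_one] at e2
    rw [← neg_neg (fP W r σ k0 τ⁻¹), e2]
    exact Subring.neg_mem _ (Subring.one_mem _)
  refine mem_three (tfP W r σ k0) (Sb W E c τ σ k0 n (lE r c τ σ) hL ε hε) c τ σ
    (mem_c W H hr) (mem_τ W H hr) (Sb_X W 0 (fun _ => rfl) rfl) (Sb_X W 3 (fun _ => rfl) rfl)
    (Sb_X W 4 (fun _ => rfl) rfl) ?_ (Sb_X W 5 (fun _ => rfl) rfl) (mem_dc W H hr)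
    (mem_dτ W H hr) (mem_dσ W) ?_ ?_ ?_
  · rw [(tfP W r σ k0).comm]
    exact Sb_X W 1 (fun _ => rfl) rfl
  · rw [dP_inv]; exact hc'
  · rw [dP_inv]; exact ht'
  · rw [dP_inv]; exact mem_dσ' W H hr

/-- the determinants of the words -/
theorem mem_dword (H : Gens c τ σ) (hr : Rep r c τ) :
    ∀ w ∈ Subgroup.closure {c, τ, σ},
      fP W r σ k0 w ∈ Sb W E c τ σ k0 n (lE r c τ σ) hL ε hε := by
  intro w hw
  induction hw using Subgroup.closure_induction'' with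
  | mem x hx =>
    rcases hx with rfl | rfl | rfl
    exacts [mem_dc W H hr, mem_dτ W H hr, mem_dσ W]
  | inv_mem x hx =>
    rcases hx with rfl | rfl | rfl
    · rw [inv_eq_of_mul_eq_one_left H.cc]
      exact mem_dc W H hr
    · have e : fP W r σ k0 x = -1 :=
        Prod.ext (funext fun j => H.dtq W j.1) hr.dt
      have e2 : fP W r σ k0 x⁻¹ * fP W r σ k0 x = 1 := by
        rw [← map_mul, inv_mul_cancel, map_one]
      rw [e, mul_neg, mul_one] at e2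
      rw [← neg_neg (fP W r σ k0 x⁻¹), e2]
      exact Subring.neg_mem _ (Subring.one_mem _)
    · exact mem_dσ' W H hr
  | one =>
    rw [map_one]
    exact Subring.one_mem _
  | mul x y _ _ hx hy =>
    rw [map_mul]
    exact Subring.mul_mem _ hx hy

/-- all of `G_ℚ` -/
theorem mem_all (H : Gens c τ σ) (hr : Rep r c τ) (g : GQ) :
    tP W r σ k0 g ∈ Sb W E c τ σ k0 n (lE r c τ σ) hL ε hε ∧
      fP W r σ k0 g ∈ Sb W E c τ σ k0 n (lE r c τ σ) hL ε hε := by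
  obtain ⟨U, hU, h1⟩ := exists_U W n k0
  obtain ⟨V, hV, h2⟩ := hr.good ε hε
  obtain ⟨w, hw, u, hu, rfl⟩ := exists_word (hU.inf hV) (H.gen _ (hU.inf hV)) g
  constructor
  · refine Sb_add W E (mem_word W H hr w hw) (fun j => ?_) (h2 w u hu.2).1 (hr.res _).1.le
    have h3 := map_dvd (mq ((Wk W j.1).t σ)) (h1 j.1 j.2 w u hu.1).1
    rwa [map_pow, map_ofNat, map_sub] at h3
  · refine Sb_add W E (mem_dword W H hr w hw) (fun j => ?_) (h2 w u hu.2).2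
      (norm_of_sub (hr.res _).2)
    have h3 := map_dvd (mq ((Wk W j.1).t σ)) (h1 j.1 j.2 w u hu.1).2
    rwa [map_pow, map_ofNat, map_sub] at h3

/-- the homomorphism from the free algebra -/
def hom (r : GQ →* GL (Fin 2) E) (φ : PA 3 → GQ) (σ : GQ) (k0 : ℕ) :
    FreeAlgebra ℤ (Gen 3) →+* PRg W E σ k0 :=
  (RingHom.pi fun j : Fin k0 => (mq ((Wk W j.1).t σ)).comp (Wk W j.1).ev).prod
    (FreeAlgebra.lift ℤ (Sum.elim (fun ℓ => tr r (φ ℓ)) (fun ℓ => dr r (φ ℓ))) :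
      FreeAlgebra ℤ (Gen 3) →ₐ[ℤ] E).toRingHom

/-- the Hecke algebra -/
theorem mem_hom (H : Gens c τ σ) (hr : Rep r c τ) {φ : PA 3 → GQ} (hφ : ∀ ℓ, IsFrob ℓ.1 (φ ℓ))
    (x : FreeAlgebra ℤ (Gen 3)) :
    hom W r φ σ k0 x ∈ Sb W E c τ σ k0 n (lE r c τ σ) hL ε hε := by
  induction x using FreeAlgebra.induction with
  | grade0 m =>
    have e : hom W r φ σ k0 (algebraMap ℤ _ m) = (m : PRg W E σ k0) := by
      rw [eq_intCast (algebraMap ℤ (FreeAlgebra ℤ (Gen 3))) m, map_intCast]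
    rw [e]
    exact intCast_mem _ m
  | grade1 s =>
    rcases s with ℓ | ℓ
    · have e : hom W r φ σ k0 (FreeAlgebra.ι ℤ (Sum.inl ℓ)) = tP W r σ k0 (φ ℓ) := by
        refine Prod.ext (funext fun j => ?_) ?_
        · change mq ((Wk W j.1).t σ) ((Wk W j.1).ev (FreeAlgebra.ι ℤ (Sum.inl ℓ))) = _
          rw [(Wk W j.1).evT ℓ (φ ℓ) (hφ ℓ)]
          rfl
        · change FreeAlgebra.lift ℤ (Sum.elim (fun ℓ => tr r (φ ℓ)) (fun ℓ => dr r (φ ℓ)))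
            (FreeAlgebra.ι ℤ (Sum.inl ℓ)) = _
          rw [FreeAlgebra.lift_ι_apply]
          rfl
      rw [e]
      exact (mem_all W H hr _).1
    · have e : hom W r φ σ k0 (FreeAlgebra.ι ℤ (Sum.inr ℓ)) = fP W r σ k0 (φ ℓ) := by
        refine Prod.ext (funext fun j => ?_) ?_
        · change mq ((Wk W j.1).t σ) ((Wk W j.1).ev (FreeAlgebra.ι ℤ (Sum.inr ℓ))) = _
          rw [(Wk W j.1).evS ℓ (φ ℓ) (hφ ℓ)]
          rfl
        · change FreeAlgebra.lift ℤ (Sum.elim (fun ℓ => tr r (φ ℓ)) (fun ℓ => dr r (φ ℓ)))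
            (FreeAlgebra.ι ℤ (Sum.inr ℓ)) = _
          rw [FreeAlgebra.lift_ι_apply]
          rfl
      rw [e]
      exact (mem_all W H hr _).2
  | mul a b ha hb =>
    rw [map_mul]
    exact Subring.mul_mem _ ha hb
  | add a b ha hb =>
    rw [map_add]
    exact Subring.add_mem _ ha hb

end mem

end prod

/-- **row [Z]** -/
theorem key (ring : RingMain) (W : ∀ i : ℕ, Even i → WD i) {c τ σ : GQ} (H : Gens c τ σ)
    (faith : Faith W c τ σ)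
    (E : Type) [NontriviallyNormedField E] [NormedAlgebra ℚ_[2] E] [IsUltrametricDist E]
    (r : GQ →* GL (Fin 2) E) (hr : Rep r c τ) (φ : PA 3 → GQ)
    (hφ : ∀ ℓ, IsFrob ℓ.1 (φ ℓ)) (ε : ℝ) (hε : 0 < ε) :
    ∃ k : ℕ, ∀ x : FreeAlgebra ℤ (Gen 3),
      (∀ i < k, FreeAlgebra.lift ℤ (fun s => gHk 3 s i) x = 0) →
        ‖FreeAlgebra.lift ℤ (Sum.elim
          (fun ℓ => (r (φ ℓ) : Matrix (Fin 2) (Fin 2) E).trace)
          (fun ℓ => (r (φ ℓ) : Matrix (Fin 2) (Fin 2) E).det)) x‖ < ε := by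
  obtain ⟨k0, n, hk⟩ := ring (fun k => Tq ((Wk W k).t σ)) (fun k _ => tq_tf (Wk W k).tf _)
    (fun k => mq _ ((Wk W k).t σ)) (fun k => mq _ ((Wk W k).t (σ * τ)))
    (fun k => mq _ ((Wk W k).t (c * τ))) (fun k => mq _ ((Wk W k).t (c * σ)))
    (fun k => mq _ ((Wk W k).t (c * τ * σ))) (fun k hk => H.relq W hk)
    (fun k _ => nilq W c τ σ k) (fun s P h => faith_k W faith s P h) E
    (tr r σ) (tr r (σ * τ)) (dr r σ) (tr r (c * τ)) (tr r (c * σ)) (tr r (c * τ * σ))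
    (hr.res _).1 (hr.res _).1 (hr.res _).1 (hr.res _).2 (relE hr H) ε hε
  refine ⟨k0, fun x hx => ?_⟩
  obtain ⟨-, Q, hQ, hq⟩ := mem_hom W (k0 := k0) (n := n) (hL := lE_le hr.res) (hε := hε) H hr hφ x
  have h1 := hk Q (fun k hk0 hodd => ?_)
  · have h2 := (IsUltrametricDist.norm_add_le_max _ _).trans_lt (max_lt hq h1)
    change ‖_ - aeval (lE r c τ σ) Q + aeval (lE r c τ σ) Q‖ < ε at h2
    rw [sub_add_cancel] at h2
    exact h2
  · have h2 := hQ ⟨k, hk0⟩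
    have h3 : (Wk W k).ev x = 0 := by
      refine (Wk W k).kill x (hx (ix k) ?_)
      simp only [ix]
      omega
    have h4 : (hom W r φ σ k0 x).1 ⟨k, hk0⟩ = 0 := by
      change mq ((Wk W k).t σ) ((Wk W k).ev x) = 0
      rw [h3, map_zero]
    rw [h4, zero_sub, dvd_neg] at h2
    have h5 : lt W c τ σ k = ![mq _ ((Wk W k).t σ), mq _ ((Wk W k).t (σ * τ)), 3 ^ (k - 1),
        mq _ ((Wk W k).t (c * τ)), mq _ ((Wk W k).t (c * σ)), mq _ ((Wk W k).t (c * τ * σ))] := by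
      have e3 : (3 : Tq ((Wk W k).t σ)) ^ ix k = 3 ^ (k - 1) :=
        congrArg (fun n => (3 : Tq ((Wk W k).t σ)) ^ n) (ix_odd hodd)
      have e4 : mq _ ((Wk W k).d σ : (Wk W k).T) = (3 : Tq ((Wk W k).t σ)) ^ (k - 1) := by
        rw [← e3, ← H.dsq W k, dq_val]
      rw [lt, e4]
    rw [h5] at h2
    exact h2

end Vale.Agent.P022.H132.Z
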