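import Vale.Agent.P022.H132.L3.Defs

/-!
P022-L3, row [Z]: the relations between the six traces, from the trace identities.
-/

open Matrix

noncomputable section

namespace Vale.Agent.P022.H132.Z

open Vale.Agent.P022 Vale.Agent.P022.H346

section

variable {G R : Type*} [Group G] [CommRing R] {t : G → R} {d : G →* Rˣ}

theorem t_c (T : TF t d) (tf : ∀ a : R, 2 * a = 0 → a = 0) {c : G} (hc : c * c = 1)
    (hd : (d c : R) = -1) : t c = 0 := by
  have h := T.inv c
  rw [inv_eq_of_mul_eq_one_left hc, hd] at h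
  apply tf
  linear_combination -h

/-- `t(σ) t(τ) = 0` -/
theorem xm (T : TF t d) {τ σ : G} (dτ : (d τ : R) = -1)
    (ex : ∀ u v, t (u * σ * τ * v) = t (u * τ * τ * τ * σ * v)) : t σ * t τ = 0 := by
  have hs : ∀ u v, t (u * τ * τ * v) = t τ * t (u * τ * v) + t (u * v) := by
    intro u v
    rw [T.sq u τ v, dτ]; ring
  have hy : t (σ * τ) = t (τ * σ) := T.comm _ _
  have e1 : t τ * t (τ * σ) = 0 := by
    have h := ex 1 τ⁻¹
    have a1 : t (1 * σ * τ * τ⁻¹) = t σ := by congr 1; group
    have a2 : t (1 * τ * τ * τ * σ * τ⁻¹) = t (1 * τ * τ * σ) := by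
      rw [T.comm (1 * τ * τ * τ * σ) τ⁻¹]; congr 1; group
    have a3 := hs 1 σ
    have a4 : t (1 * τ * σ) = t (τ * σ) := by congr 1; group
    have a5 : t (1 * σ) = t σ := by congr 1; group
    rw [a1, a2, a3, a4, a5] at h
    linear_combination -h
  have h := ex 1 1
  have a1 : t (1 * σ * τ * 1) = t (τ * σ) := by rw [← hy]; congr 1; group
  have a2 := hs τ σ
  have a3 : t (1 * τ * τ * τ * σ * 1) = t (τ * τ * τ * σ) := by congr 1; group
  have a4 := hs 1 σ
  have a5 : t (1 * τ * τ * σ) = t (τ * τ * σ) := by congr 1; group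
  have a6 : t (1 * τ * σ) = t (τ * σ) := by congr 1; group
  have a7 : t (1 * σ) = t σ := by congr 1; group
  rw [a5, a6, a7] at a4
  rw [a1, a3, a2, a4] at h
  linear_combination -h - t τ * e1

theorem rel_of (T : TF t d) (tf : ∀ a : R, 2 * a = 0 → a = 0) {c τ σ : G}
    (tc : t c = 0) (tt : t τ = 0) (dτ : (d τ : R) = -1)
    (ex : ∀ u v, t (u * σ * τ * v) = t (u * τ * τ * τ * σ * v)) :
    Rel (t σ) (t (σ * τ)) (d σ : R) (t (c * τ)) (t (c * σ)) (t (c * τ * σ)) := by
  have hs : ∀ u v, t (u * τ * τ * v) = t (u * v) := by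
    intro u v
    rw [T.sq u τ v, dτ, tt]; ring
  have hi : ∀ u v, t (u * τ⁻¹ * v) = t (u * τ * v) := by
    intro u v
    have h := T.inv_mid u τ v
    rw [dτ, tt] at h
    linear_combination -h
  have exx : ∀ u v, t (u * σ * τ * v) = t (u * τ * σ * v) := by
    intro u v
    rw [ex u v]
    have h := hs u (τ * σ * v)
    have a1 : t (u * τ * τ * (τ * σ * v)) = t (u * τ * τ * τ * σ * v) := by congr 1; group
    have a2 : t (u * (τ * σ * v)) = t (u * τ * σ * v) := by congr 1; group
    rw [← a1, h, a2]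
  -- r1
  have r1 : 2 * t (c * τ * σ) = t (c * τ) * t σ := by
    have h0 := T.mul c (τ * σ)
    have a1 : t (c * (τ * σ)) = t (c * τ * σ) := by congr 1; group
    have a2 : t (c * (τ * σ)⁻¹) = t (c * σ⁻¹ * τ⁻¹ * 1) := by congr 1; group
    have a3 : t (c * σ⁻¹ * τ * 1) = t (c * σ⁻¹ * τ) := by congr 1; group
    have a4 : (d (τ * σ) : R) = -(d σ : R) := by
      rw [map_mul, Units.val_mul, dτ]; ring
    have h1 := T.inv_mid c σ τ
    have a5 : t (c * σ * τ) = t (c * τ * σ) := by
      have := exx c 1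
      simpa using this
    rw [a5] at h1
    rw [tc, a1, a2, hi (c * σ⁻¹) 1, a3, a4] at h0
    linear_combination -h0 + h1
  have r2 : 2 * t (c * σ) = t (c * τ) * t (σ * τ) := by
    have h0 := T.mul (c * τ) (σ * τ)
    have a1 : t (c * τ * (σ * τ)) = t (c * σ) := by
      have h := exx (c * τ) 1
      have b1 : t (c * τ * σ * τ * 1) = t (c * τ * (σ * τ)) := by congr 1; group
      have b2 : t (c * τ * τ * σ * 1) = t (c * τ * τ * σ) := by congr 1; group
      rw [b1, b2, hs c σ] at h
      exact h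
    have a2 : t (c * τ * (σ * τ)⁻¹) = t (c * σ⁻¹ * 1) := by congr 1; group
    have a4 : (d (σ * τ) : R) = -(d σ : R) := by
      rw [map_mul, Units.val_mul, dτ]; ring
    have h1 := T.inv_mid c σ 1
    have a5 : t (c * 1) = 0 := by rw [mul_one, tc]
    have a6 : t (c * σ * 1) = t (c * σ) := by rw [mul_one]
    rw [a5, a6] at h1
    rw [a1, a2, a4] at h0
    linear_combination -h0 + h1
  have r3 : t (σ * τ) ^ 2 = t σ ^ 2 - 4 * (d σ : R) := by
    have h0 := T.mul (σ * τ) (σ * τ)
    have h1 := T.mul σ σ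
    have a1 : t (σ * τ * (σ * τ)) = t (σ * σ) := by
      have h := exx (σ * τ) 1
      have b1 : t (σ * τ * σ * τ * 1) = t (σ * τ * (σ * τ)) := by congr 1; group
      have b2 : t (σ * τ * τ * σ * 1) = t (σ * τ * τ * σ) := by congr 1; group
      rw [b1, b2, hs σ σ] at h
      exact h
    have a2 : t (σ * τ * (σ * τ)⁻¹) = 2 := by rw [mul_inv_cancel, T.one]
    have a3 : t (σ * σ⁻¹) = 2 := by rw [mul_inv_cancel, T.one]
    have a4 : (d (σ * τ) : R) = -(d σ : R) := by
      rw [map_mul, Units.val_mul, dτ]; ring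
    rw [a1, a2, a4] at h0
    rw [a3] at h1
    linear_combination h0 - h1
  refine ⟨r1, r2, r3, ?_, ?_⟩
  · rw [← sub_eq_zero]
    apply tf
    linear_combination t (σ * τ) * r2 + t (c * τ) * r3 - t σ * r1
  · rw [← sub_eq_zero]
    apply tf
    apply tf
    linear_combination (2 * t (c * σ) + t (c * τ) * t (σ * τ)) * r2 + t (c * τ) ^ 2 * r3 -
      (2 * t (c * τ * σ) + t (c * τ) * t σ) * r1

end

/-- composition with a ring homomorphism -/
theorem TF.map' {G R S : Type*} [Group G] [CommRing R] [CommRing S] {t : G → R} {d : G →* Rˣ}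
    (T : TF t d) (f : R →+* S) :
    TF (fun g => f (t g)) ((Units.map (f : R →* S)).comp d) where
  one := by
    rw [T.one, map_ofNat]
  comm g h := by simp only [T.comm g h]
  mul g h := by
    have := congrArg f (T.mul g h)
    simpa using this

/-- trace and determinant of a two-dimensional representation -/
theorem TF.ofGL {G E : Type*} [Group G] [Field E] (r : G →* GL (Fin 2) E) :
    TF (fun g => (r g : Matrix (Fin 2) (Fin 2) E).trace)
      ((GeneralLinearGroup.det : GL (Fin 2) E →* Eˣ).comp r) where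
  one := by simp
  comm g h := by
    simp only [map_mul, GeneralLinearGroup.coe_mul]
    exact Matrix.trace_mul_comm _ _
  mul g h := by
    have h1 : ((r h : Matrix (Fin 2) (Fin 2) E).det) • ((r h)⁻¹ : GL (Fin 2) E).val =
        (r h : Matrix (Fin 2) (Fin 2) E).adjugate := by
      have e : (r h : Matrix (Fin 2) (Fin 2) E) * ((r h)⁻¹ : GL (Fin 2) E).val = 1 := by
        rw [← GeneralLinearGroup.coe_mul, mul_inv_cancel]; rfl
      calc ((r h : Matrix (Fin 2) (Fin 2) E).det) • ((r h)⁻¹ : GL (Fin 2) E).val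
          = ((r h : Matrix (Fin 2) (Fin 2) E).adjugate * (r h : Matrix (Fin 2) (Fin 2) E)) *
              ((r h)⁻¹ : GL (Fin 2) E).val := by
            rw [Matrix.adjugate_mul, smul_mul_assoc, one_mul]
        _ = _ := by rw [mul_assoc, e, mul_one]
    have h2 : (((GeneralLinearGroup.det : GL (Fin 2) E →* Eˣ).comp r) h : E) =
        (r h : Matrix (Fin 2) (Fin 2) E).det := rfl
    rw [h2, map_mul, map_mul, map_inv, GeneralLinearGroup.coe_mul, GeneralLinearGroup.coe_mul,
      ← smul_eq_mul ((r h : Matrix (Fin 2) (Fin 2) E).det), ← Matrix.trace_smul,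
      ← Matrix.mul_smul, h1]
    simp only [Matrix.trace_fin_two, Matrix.adjugate_fin_two, Matrix.mul_apply, Fin.sum_univ_two,
      Matrix.of_apply, Matrix.cons_val', Matrix.cons_val_zero, Matrix.cons_val_one,
      Matrix.cons_val_fin_one]
    ring

end Vale.Agent.P022.H132.Z
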