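import Vale.Agent.P022.H132.L3.Rel

/-!
P022-L3, row [Z]: the end.
-/

open Matrix MvPolynomial

noncomputable section

namespace Vale.Agent.P022.H132.Z

open Vale.Agent.P022 Vale.Agent.P022.H346

/-! ### the quotient by the annihilator of `x` -/

/-- the annihilator -/
def annI {T : Type} [CommRing T] (x : T) : Ideal T where
  carrier := {a | x * a = 0}
  add_mem' {a b} ha hb := by
    change x * (a + b) = 0
    rw [mul_add, show x * a = 0 from ha, show x * b = 0 from hb, add_zero]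
  zero_mem' := mul_zero x
  smul_mem' c a ha := by
    change x * (c * a) = 0
    rw [mul_left_comm, show x * a = 0 from ha, mul_zero]

theorem mem_annI {T : Type} [CommRing T] {x a : T} : a ∈ annI x ↔ x * a = 0 := Iff.rfl

/-- `T / Ann(x)` -/
abbrev Tq {T : Type} [CommRing T] (x : T) : Type := T ⧸ annI x

/-- the quotient map -/
abbrev mq {T : Type} [CommRing T] (x : T) : T →+* Tq x := Ideal.Quotient.mk (annI x)

theorem mq_eq_zero {T : Type} [CommRing T] {x a : T} : mq x a = 0 ↔ x * a = 0 :=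
  Ideal.Quotient.eq_zero_iff_mem

theorem dvdX_iff {T : Type} [CommRing T] {x b a : T} : DvdX x b a ↔ mq x b ∣ mq x a := by
  constructor
  · rintro ⟨y, hy⟩
    refine ⟨mq x y, ?_⟩
    rw [← map_mul, ← sub_eq_zero, ← map_sub, mq_eq_zero, mul_sub, hy, sub_self]
  · rintro ⟨y, hy⟩
    obtain ⟨y, rfl⟩ := Ideal.Quotient.mk_surjective y
    refine ⟨y, ?_⟩
    rw [← map_mul, ← sub_eq_zero, ← map_sub] at hy
    have := mq_eq_zero.1 hy
    rw [mul_sub, sub_eq_zero] at this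
    exact this

theorem tq_tf {T : Type} [CommRing T] (tf : ∀ a : T, 2 * a = 0 → a = 0) (x : T) :
    ∀ a : Tq x, 2 * a = 0 → a = 0 := by
  intro a ha
  obtain ⟨a, rfl⟩ := Ideal.Quotient.mk_surjective a
  have h1 : mq x (2 * a) = 0 := by
    rw [map_mul, map_ofNat]; exact ha
  rw [mq_eq_zero] at h1
  change mq x a = 0
  rw [mq_eq_zero]
  apply tf
  rw [← h1]; ring

/-! ### the literal of the ring row (helper693) -/

/-- [RING] -/
def RingMain : Prop := ∀ (T : ℕ → Type) [∀ k, CommRing (T k)]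
  (_ : ∀ k, Odd k → ∀ a : T k, 2 * a = 0 → a = 0) (x y A B C : ∀ k, T k)
  (_ : ∀ k, Odd k → Rel (x k) (y k) (3 ^ (k - 1)) (A k) (B k) (C k))
  (_ : ∀ k, Odd k → ∃ N, 2 ∣ x k ^ N ∧ 2 ∣ A k ^ N ∧ 2 ∣ C k ^ N)
  (_ : ∀ (s : ℕ) (P : ℕ → ℕ → ℤ), (∀ k, 1 < k → k ≡ 1 [MOD 2 ^ (s + 1)] → ∀ N,
    2 ∣ x k ^ N → 2 ∣ C k ^ N → 2 ∣ ∑ p ∈ Finset.range N, ∑ q ∈ Finset.range N,
      (P p q : T k) * x k ^ p * C k ^ q) → ∀ p q, 2 ∣ P p q)
  (E : Type) [NontriviallyNormedField E] [NormedAlgebra ℚ_[2] E] [IsUltrametricDist E]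
  (X Y Z a b c : E) (_ : ‖X‖ < 1) (_ : ‖a‖ < 1) (_ : ‖c‖ < 1) (_ : ‖Z - 1‖ < 1)
  (_ : Rel X Y Z a b c) (ε : ℝ) (_ : 0 < ε),
  ∃ k0 n : ℕ, ∀ Q : MvPolynomial (Fin 6) ℤ,
    (∀ k < k0, Odd k → 2 ^ n ∣ aeval ![x k, y k, 3 ^ (k - 1), A k, B k, C k] Q) →
    ‖aeval ![X, Y, Z, a, b, c] Q‖ < ε

/-! ### the data in weight `k`, `k = 2 [k/2] + 1` -/

section data

variable (W : ∀ i : ℕ, Even i → WD i)

/-- the index `2 [k/2]` -/
abbrev ix (k : ℕ) : ℕ := 2 * (k / 2)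

/-- the datum -/
abbrev Wk (k : ℕ) : WD (ix k) := W (ix k) (even_two_mul _)

theorem ix_odd {k : ℕ} (hk : Odd k) : ix k = k - 1 := by
  obtain ⟨m, rfl⟩ := hk
  simp only [ix]
  omega

/-- exchange of `σ τ` and `τ³ σ` -/
theorem exW {i : ℕ} (w : WD i) {τ σ : GQ}
    (tame : ∀ U : Subgroup GQ, Good U → (τ * τ * τ * σ)⁻¹ * (σ * τ) ∈ U) (u v : GQ) :
    w.t (u * σ * τ * v) = w.t (u * τ * τ * τ * σ * v) := by
  rw [← sub_eq_zero]
  refine w.sep _ fun n => ?_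
  obtain ⟨U, hU, hc⟩ := w.cont n
  have hn := hU.nor
  have h1 := (hc (u * τ * τ * τ * σ * v) (v⁻¹ * ((τ * τ * τ * σ)⁻¹ * (σ * τ)) * v)
    (by simpa using hn.conj_mem _ (tame U hU) v⁻¹)).1
  have e : u * τ * τ * τ * σ * v * (v⁻¹ * ((τ * τ * τ * σ)⁻¹ * (σ * τ)) * v) =
      u * σ * τ * v := by group
  rwa [e] at h1

/-- nilpotence modulo 2 -/
theorem nilW {i : ℕ} (w : WD i) (g : GQ) : ∃ N, ∀ M, N ≤ M → (2 : w.T) ∣ w.t g ^ M := by
  obtain ⟨U, hU, hc⟩ := w.cont 1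
  obtain ⟨k, hk⟩ := hU.two g
  have h1 : ∀ j : ℕ, (2 : w.T) ∣ w.t g ^ 2 ^ j - w.t (g ^ 2 ^ j) := by
    intro j
    induction j with
    | zero => simp
    | succ j ih =>
      have e := w.htf.mul (g ^ 2 ^ j) (g ^ 2 ^ j)
      rw [mul_inv_cancel, w.htf.one, ← pow_add, ← two_mul, ← pow_succ'] at e
      have e2 : w.t g ^ 2 ^ (j + 1) - w.t (g ^ 2 ^ (j + 1)) =
          (w.t g ^ 2 ^ j - w.t (g ^ 2 ^ j)) * (w.t g ^ 2 ^ j + w.t (g ^ 2 ^ j)) +
            2 * (w.d (g ^ 2 ^ j) : w.T) := by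
        have e3 : w.t g ^ 2 ^ (j + 1) = (w.t g ^ 2 ^ j) ^ 2 := by rw [← pow_mul, ← pow_succ]
        rw [e3]
        linear_combination e
      rw [e2]
      exact dvd_add (Dvd.dvd.mul_right ih _) (dvd_mul_right _ _)
  have h2 := (hc 1 _ hk).1
  rw [one_mul, w.htf.one, pow_one] at h2
  have h3 : (2 : w.T) ∣ w.t (g ^ 2 ^ k) := by
    have := dvd_add h2 (dvd_refl (2 : w.T))
    simpa using this
  refine ⟨2 ^ k, fun M hM => ?_⟩
  have h4 : (2 : w.T) ∣ w.t g ^ 2 ^ k := by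
    have := dvd_add (h1 k) h3
    simpa using this
  exact h4.trans (pow_dvd_pow _ hM)

end data

/-! ### the element `g` of `G_ℚ` modulo a good subgroup -/

theorem exists_word {c τ σ : GQ} {U : Subgroup GQ} (hU : Good U)
    (gen : Subgroup.closure {c, τ, σ} ⊔ U = ⊤) (g : GQ) :
    ∃ w ∈ Subgroup.closure {c, τ, σ}, ∃ u ∈ U, w * u = g := by
  have hn := hU.nor
  have h1 : g ∈ (Subgroup.closure {c, τ, σ} ⊔ U : Subgroup GQ) := by rw [gen]; trivial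
  rw [← SetLike.mem_coe, Subgroup.mul_normal] at h1
  exact Set.mem_mul.1 h1

section main

variable (W : ∀ i : ℕ, Even i → WD i) {c τ σ : GQ}

/-- the six letters in weight `k` -/
def lt (c τ σ : GQ) (k : ℕ) : Fin 6 → Tq ((Wk W k).t σ) :=
  ![mq _ ((Wk W k).t σ), mq _ ((Wk W k).t (σ * τ)), mq _ ((Wk W k).d σ : (Wk W k).T),
    mq _ ((Wk W k).t (c * τ)), mq _ ((Wk W k).t (c * σ)), mq _ ((Wk W k).t (c * τ * σ))]

/-- the trace function on `T / Ann(x)` -/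
def tq (σ : GQ) (k : ℕ) (g : GQ) : Tq ((Wk W k).t σ) := mq _ ((Wk W k).t g)

/-- the determinant on `T / Ann(x)` -/
def dq (σ : GQ) (k : ℕ) : GQ →* (Tq ((Wk W k).t σ))ˣ :=
  (Units.map ((mq ((Wk W k).t σ) : (Wk W k).T →+* Tq ((Wk W k).t σ)) :
    (Wk W k).T →* Tq ((Wk W k).t σ))).comp (Wk W k).d

theorem dq_val (σ : GQ) (k : ℕ) (g : GQ) :
    ((dq W σ k g : (Tq ((Wk W k).t σ))ˣ) : Tq ((Wk W k).t σ)) = mq _ ((Wk W k).d g : (Wk W k).T) :=
  rfl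

theorem tfq (σ : GQ) (k : ℕ) : TF (tq W σ k) (dq W σ k) :=
  TF.map' (Wk W k).htf (mq ((Wk W k).t σ))

variable (E : Type) [NontriviallyNormedField E] [NormedAlgebra ℚ_[2] E] [IsUltrametricDist E]

/-- the product ring -/
abbrev PRg (σ : GQ) (k0 : ℕ) : Type := (∀ j : Fin k0, Tq ((Wk W j.1).t σ)) × E

omit [NormedAlgebra ℚ_[2] E] in
theorem norm_aeval_le (LE : Fin 6 → E) (hL : ∀ i, ‖LE i‖ ≤ 1) (Q : MvPolynomial (Fin 6) ℤ) :
    ‖aeval LE Q‖ ≤ 1 := by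
  induction Q using MvPolynomial.induction_on with
  | C a =>
    rw [MvPolynomial.aeval_C]
    simpa using IsUltrametricDist.norm_intCast_le_one E a
  | add p q hp hq =>
    rw [map_add]
    exact (IsUltrametricDist.norm_add_le_max _ _).trans (max_le hp hq)
  | mul_X p i hp =>
    rw [map_mul, MvPolynomial.aeval_X, norm_mul]
    exact mul_le_one₀ hp (norm_nonneg _) (hL i)

/-- the subring of the elements which are polynomials in the letters up to `2 ^ n` and `ε` -/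
def Sb (c τ σ : GQ) (k0 n : ℕ) (LE : Fin 6 → E) (hL : ∀ i, ‖LE i‖ ≤ 1) (ε : ℝ) (hε : 0 < ε) :
    Subring (PRg W E σ k0) where
  carrier := {s | ‖s.2‖ ≤ 1 ∧ ∃ Q : MvPolynomial (Fin 6) ℤ,
    (∀ j : Fin k0, (2 : Tq ((Wk W j.1).t σ)) ^ n ∣ s.1 j - aeval (lt W c τ σ j.1) Q) ∧
    ‖s.2 - aeval LE Q‖ < ε}
  mul_mem' := by
    rintro a b ⟨ha, Q, hQ, hq⟩ ⟨hb, Q', hQ', hq'⟩
    refine ⟨?_, Q * Q', fun j => ?_, ?_⟩
    · change ‖a.2 * b.2‖ ≤ 1
      rw [norm_mul]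
      exact mul_le_one₀ ha (norm_nonneg _) hb
    · change _ ∣ a.1 j * b.1 j - _
      rw [map_mul]
      have e : a.1 j * b.1 j - aeval (lt W c τ σ j.1) Q * aeval (lt W c τ σ j.1) Q' =
          a.1 j * (b.1 j - aeval (lt W c τ σ j.1) Q') +
            (a.1 j - aeval (lt W c τ σ j.1) Q) * aeval (lt W c τ σ j.1) Q' := by ring
      rw [e]
      exact dvd_add (Dvd.dvd.mul_left (hQ' j) _) (Dvd.dvd.mul_right (hQ j) _)
    · change ‖a.2 * b.2 - _‖ < ε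
      rw [map_mul]
      have e : a.2 * b.2 - aeval LE Q * aeval LE Q' =
          a.2 * (b.2 - aeval LE Q') + (a.2 - aeval LE Q) * aeval LE Q' := by ring
      rw [e]
      refine (IsUltrametricDist.norm_add_le_max _ _).trans_lt (max_lt ?_ ?_)
      · rw [norm_mul]
        exact (mul_le_of_le_one_left (norm_nonneg _) ha).trans_lt hq'
      · rw [norm_mul]
        exact (mul_le_of_le_one_right (norm_nonneg _) (norm_aeval_le E LE hL Q')).trans_lt hq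
  one_mem' := ⟨by simp, 1, fun j => by simp, by simpa using hε⟩
  add_mem' := by
    rintro a b ⟨ha, Q, hQ, hq⟩ ⟨hb, Q', hQ', hq'⟩
    refine ⟨?_, Q + Q', fun j => ?_, ?_⟩
    · exact (IsUltrametricDist.norm_add_le_max _ _).trans (max_le ha hb)
    · change _ ∣ a.1 j + b.1 j - _
      rw [map_add, add_sub_add_comm]
      exact dvd_add (hQ j) (hQ' j)
    · change ‖a.2 + b.2 - _‖ < ε
      rw [map_add, add_sub_add_comm]
      exact (IsUltrametricDist.norm_add_le_max _ _).trans_lt (max_lt hq hq')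
  zero_mem' := ⟨by simp, 0, fun j => by simp, by simpa using hε⟩
  neg_mem' := by
    rintro a ⟨ha, Q, hQ, hq⟩
    refine ⟨?_, -Q, fun j => ?_, ?_⟩
    · change ‖-a.2‖ ≤ 1
      rwa [norm_neg]
    · change _ ∣ -a.1 j - _
      rw [map_neg, neg_sub_neg, ← neg_sub, dvd_neg]
      exact hQ j
    · change ‖-a.2 - _‖ < ε
      rw [map_neg, neg_sub_neg, ← neg_sub, norm_neg]
      exact hq

omit [NormedAlgebra ℚ_[2] E] in
/-- small perturbations -/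
theorem Sb_add {c τ σ : GQ} {k0 n : ℕ} {LE : Fin 6 → E} {hL : ∀ i, ‖LE i‖ ≤ 1} {ε : ℝ}
    {hε : 0 < ε} {a b : PRg W E σ k0} (ha : a ∈ Sb W E c τ σ k0 n LE hL ε hε)
    (h1 : ∀ j : Fin k0, (2 : Tq ((Wk W j.1).t σ)) ^ n ∣ b.1 j - a.1 j)
    (h2 : ‖b.2 - a.2‖ < ε) (h3 : ‖b.2‖ ≤ 1) : b ∈ Sb W E c τ σ k0 n LE hL ε hε := by
  obtain ⟨ha, Q, hQ, hq⟩ := ha
  refine ⟨h3, Q, fun j => ?_, ?_⟩
  · have := dvd_add (h1 j) (hQ j)
    rwa [sub_add_sub_cancel] at this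
  · have := (IsUltrametricDist.norm_add_le_max (b.2 - a.2) (a.2 - aeval LE Q)).trans_lt
      (max_lt h2 hq)
    rwa [sub_add_sub_cancel] at this

/-- a common good subgroup -/
theorem exists_U (n : ℕ) (k0 : ℕ) : ∃ U : Subgroup GQ, Good U ∧ ∀ j < k0, ∀ g : GQ, ∀ u ∈ U,
    (2 : (Wk W j).T) ^ n ∣ (Wk W j).t (g * u) - (Wk W j).t g ∧
    (2 : (Wk W j).T) ^ n ∣ ((Wk W j).d (g * u) : (Wk W j).T) - (Wk W j).d g := by
  induction k0 with
  | zero =>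
    obtain ⟨U, hU, -⟩ := (Wk W 0).cont 0
    exact ⟨U, hU, fun j hj => absurd hj (Nat.not_lt_zero j)⟩
  | succ k0 ih =>
    obtain ⟨U, hU, h1⟩ := ih
    obtain ⟨V, hV, h2⟩ := (Wk W k0).cont n
    refine ⟨U ⊓ V, hU.inf hV, fun j hj g u hu => ?_⟩
    rcases Nat.lt_succ_iff_lt_or_eq.1 hj with h | rfl
    · exact h1 j h g u hu.1
    · exact h2 g u hu.2

theorem two_pow_dvd (a : ℤ) (ha : Odd a) (J : ℕ) : (2 : ℤ) ^ J ∣ a ^ 2 ^ J - 1 := by
  induction J with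
  | zero => simp
  | succ J ih =>
    have e : a ^ 2 ^ (J + 1) - 1 = (a ^ 2 ^ J - 1) * (a ^ 2 ^ J + 1) := by
      rw [pow_succ, pow_mul]; ring
    rw [e, pow_succ]
    refine mul_dvd_mul ih ?_
    have h := (ha.pow (n := 2 ^ J)).add_odd odd_one
    exact h.two_dvd

theorem norm_two : ‖(2 : E)‖ < 1 := by
  have e : (2 : E) = algebraMap ℚ_[2] E 2 := (map_ofNat _ 2).symm
  rw [e, norm_algebraMap']
  have : ‖((2 : ℕ) : ℚ_[2])‖ < 1 := Padic.norm_p_lt_one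
  exact_mod_cast this

theorem norm_pow_sub {Z : E} (hZ : ‖Z - 1‖ < 1) (J : ℕ) :
    ‖Z ^ 2 ^ J - 1‖ ≤ (max ‖Z - 1‖ ‖(2 : E)‖) ^ (J + 1) := by
  set ρ := max ‖Z - 1‖ ‖(2 : E)‖ with hρ
  have h0 : 0 ≤ ρ := (norm_nonneg _).trans (le_max_left _ _)
  have h1 : ρ ≤ 1 := max_le hZ.le (norm_two E).le
  induction J with
  | zero => simpa [hρ] using le_max_left ‖Z - 1‖ ‖(2 : E)‖
  | succ J ih =>
    have e : Z ^ 2 ^ (J + 1) - 1 = (Z ^ 2 ^ J - 1) * ((Z ^ 2 ^ J - 1) + 2) := by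
      rw [pow_succ, pow_mul]; ring
    rw [e, norm_mul, pow_succ ρ (J + 1)]
    refine mul_le_mul ih ?_ (norm_nonneg _) (pow_nonneg h0 _)
    refine (IsUltrametricDist.norm_add_le_max _ _).trans (max_le (ih.trans ?_) (le_max_right _ _))
    calc ρ ^ (J + 1) ≤ ρ ^ 1 := pow_le_pow_of_le_one h0 h1 (by omega)
      _ = ρ := pow_one ρ

end main

end Vale.Agent.P022.H132.Z
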