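import Vale.Agent.P022.H132.L3.Asm
import Vale.Agent.P022.H20.L3.W0
import Vale.Agent.P022.H30.FaithW
import Vale.Agent.P022.H693.Bridge

/-!
P022-L3: from the families of pseudocharacters to the theorem.
-/

open Matrix

noncomputable section

namespace Vale.Agent.P022.H132.Z

open Vale.Agent.P022 Vale.Agent.P022.H20.L3

/-- the estimate at level three, for a given `r` -/
theorem estimate (hF : ∀ i : ℕ, Even i → 0 < i → ∃ F : Fam i, F.Ker)
    (E : Type) [NontriviallyNormedField E] [NormedAlgebra ℚ_[2] E] [IsUltrametricDist E]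
    (r : GQ →* GL (Fin 2) E) (hc : Continuous r) (ho : OddRep r) (h3 : C3 r)
    (φ : PA 3 → GQ) (hφ : ∀ ℓ, IsFrob ℓ.1 (φ ℓ)) (ε : ℝ) (hε : 0 < ε) :
    ∃ k : ℕ, ∀ x : FreeAlgebra ℤ (Gen 3),
      (∀ i < k, FreeAlgebra.lift ℤ (fun s => gHk 3 s i) x = 0) →
        ‖FreeAlgebra.lift ℤ (Sum.elim
          (fun ℓ => (r (φ ℓ) : Matrix (Fin 2) (Fin 2) E).trace)
          (fun ℓ => (r (φ ℓ) : Matrix (Fin 2) (Fin 2) E).det)) x‖ < ε := by
  obtain ⟨W, hW⟩ := exists_W_of_fam hF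
  exact est H693.ringMain W (fun c τ σ H => H30.faith W hW H) E r hc ho h3 φ hφ ε hε

/-- **P022-L3, from the families** -/
theorem top (hF : ∀ i : ℕ, Even i → 0 < i → ∃ F : Fam i, F.Ker)
    (E : Type) [NontriviallyNormedField E] [NormedAlgebra ℚ_[2] E] [FiniteDimensional ℚ_[2] E]
    (r : GQ →* GL (Fin 2) E) (hc : Continuous r) (ho : OddRep r) (h3 : C3 r) : Q1Concl E r := by
  have hu : IsUltrametricDist E := IsUltrametricDist.of_normedAlgebra ℚ_[2]
  exact H20.fin3 E r h3 fun φ hφ ε hε => estimate hF E r hc ho h3 φ hφ ε hε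

end Vale.Agent.P022.H132.Z
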